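import Vale.Agent.P200.Avg.Final

/-!
The Hilbert function of an ideal containing a regular sequence is an average of Hilbert functions
of monomial ideals containing the corresponding pure powers.
-/

open MvPolynomial Module

theorem Vale.Agent.Results.P200.EGHAveraged.result (K : Type*) [Field K] (n c : ℕ) (hcn : c ≤ n)
    (a : Fin c → ℕ) (ha : ∀ i, 2 ≤ a i)
    (f : Fin c → MvPolynomial (Fin n) K) (hf : ∀ i, (f i).IsHomogeneous (a i))
    (hreg : ∀ i, ∀ u, f i * u ∈ Ideal.span (f '' Set.Iio i) → u ∈ Ideal.span (f '' Set.Iio i)) :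
    ∃ N : ℕ, 0 < N ∧ ∀ I : Ideal (MvPolynomial (Fin n) K), (∀ i, f i ∈ I) →
      ∃ s : Fin N → Set (Fin n →₀ ℕ), (∀ j i, Finsupp.single (Fin.castLE hcn i) (a i) ∈ s j) ∧
        ∀ d, ∑ j, finrank K ↥(homogeneousSubmodule (Fin n) K d ⊓
            (Ideal.span ((fun e => monomial e (1 : K)) '' s j)).restrictScalars K) =
          N * finrank K ↥(homogeneousSubmodule (Fin n) K d ⊓ I.restrictScalars K) :=
  Vale.Agent.P200.Avg.exists_average hcn (fun i => lt_of_lt_of_le (by norm_num) (ha i)) hf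
    (Vale.Agent.P200.LPP3.regList_ofFn f hreg)
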