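import Vale.Agent.P200.Deg.Core

/-!
Lex-plus-powers spaces when a core of three forms, of forms of degree at most `q` with all but two of
degree exactly `q` (quadrics, any `q` with characteristic zero or above `q`, or `q` a power of
the characteristic), or of forms whose degrees are arbitrary powers of the characteristic, is
arbitrary and the rest split.
-/

open MvPolynomial Module

universe u

theorem Vale.Agent.Results.P200.EGHCoreForms.result (K : Type u) [Field K] (n c : ℕ)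
    (hc : c ≤ n) (a : Fin c → ℕ) (q : ℕ)
    (hq : q = 2 ∨ (2 ≤ q ∧ (ringChar K = 0 ∨ q < ringChar K)) ∨ IsPrimePow q ∧ ringChar K ∣ q)
    (hn : 3 ≤ n ∨ (∀ i, a i = q) ∨ ∀ i, IsPrimePow (a i) ∧ ringChar K ∣ a i) (ha : Monotone a)
    (ha2 : ∀ i, 2 ≤ a i) (f : Fin c → MvPolynomial (Fin n) K) (hf : ∀ i, (f i).IsHomogeneous (a i))
    (hreg : ∀ i, ∀ u, f i * u ∈ Ideal.span (f '' Set.Iio i) → u ∈ Ideal.span (f '' Set.Iio i))
    (hsplit : ∃ E : Finset (Fin c),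
      (E.card ≤ 3 ∨ ((∀ i ∈ E, a i ≤ q) ∧ (E.filter fun i => a i < q).card ≤ 2) ∨
        ∀ i ∈ E, IsPrimePow (a i) ∧ ringChar K ∣ a i) ∧ ∀ i, i ∉ E →
      ∃ ls : List (MvPolynomial (Fin n) (AlgebraicClosure K)), ls.length = a i ∧
        (∀ l ∈ ls, l.IsHomogeneous 1) ∧ map (algebraMap K (AlgebraicClosure K)) (f i) = ls.prod)
    (I : Ideal (MvPolynomial (Fin n) K)) (hI : ∀ u ∈ I, ∀ d, homogeneousComponent d u ∈ I)
    (hfI : ∀ i, f i ∈ I) :
    ∃ T : ℕ → Finset (Fin n →₀ ℕ), ∀ d,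
      (∀ e ∈ T d, e.degree = d) ∧
      (∀ e : Fin n →₀ ℕ, e.degree = d → (∃ i, a i ≤ e (Fin.castLE hc i)) → e ∈ T d) ∧
      (∀ e ∈ T d, ∀ e' : Fin n →₀ ℕ, e'.degree = d →
        (∀ i, e (Fin.castLE hc i) < a i) → (∀ i, e' (Fin.castLE hc i) < a i) →
        toLex e < toLex e' → e' ∈ T d) ∧
      (T d).card = finrank K ↥(homogeneousSubmodule (Fin n) K d ⊓ I.restrictScalars K) ∧
      ∀ e ∈ T d, ∀ v, e + Finsupp.single v 1 ∈ T (d + 1) :=
  Vale.Agent.P200.Deg.coreForms K n c hc a q hq hn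
    ha ha2 f hf hreg hsplit I hI hfI
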