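import Vale.Agent.P200.Betti.Free.PrimePower
import Vale.Agent.P200.Betti.Tri.LPP
import Vale.Agent.P200.Betti.Tri.Rows
import Vale.Agent.P200.PMix.HasRows
import Vale.Agent.P200.Deg.Final
import Vale.Agent.P200.Deg.Wrap
import Vale.Agent.P200.Deg.Torus
import Vale.Agent.P200.Deg.Induct
import Vale.Agent.P200.Deg.Calculus

/-!
The lex-plus-powers theorem for regular sequences of forms, any number of them, of one degree (the
characteristic zero or above it), or of any degrees that are powers of the characteristic.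
-/

open MvPolynomial Module
open Vale.Agent.P200.Betti (betti)

universe u

theorem Vale.Agent.Results.P200.LPPPowers.result (K : Type u) [Field K] (n c : ℕ) (hcn : c ≤ n)
    (a : Fin c → ℕ) (hmono : Monotone a) (ha2 : ∀ i, 2 ≤ a i)
    (ha : (∃ q : ℕ, (ringChar K = 0 ∨ q < ringChar K) ∧ ∀ i, a i = q) ∨
      ∀ i, IsPrimePow (a i) ∧ ringChar K ∣ a i)
    (f : Fin c → MvPolynomial (Fin n) K) (hf : ∀ i, (f i).IsHomogeneous (a i))
    (hreg : ∀ i, ∀ u, f i * u ∈ Ideal.span (f '' Set.Iio i) → u ∈ Ideal.span (f '' Set.Iio i))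
    (I : Ideal (MvPolynomial (Fin n) K)) (hI : ∀ u ∈ I, ∀ d, homogeneousComponent d u ∈ I)
    (hfI : ∀ i, f i ∈ I) :
    ∃ T : ℕ → Finset (Fin n →₀ ℕ), (∀ d,
      (∀ e ∈ T d, e.degree = d) ∧
      (∀ e : Fin n →₀ ℕ, e.degree = d → (∃ i : Fin c, a i ≤ e (Fin.castLE hcn i)) → e ∈ T d) ∧
      (∀ e ∈ T d, ∀ e' : Fin n →₀ ℕ, e'.degree = d →
        (∀ i : Fin c, e (Fin.castLE hcn i) < a i) → (∀ i : Fin c, e' (Fin.castLE hcn i) < a i) →
        toLex e < toLex e' → e' ∈ T d) ∧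
      (T d).card = finrank K ↥(homogeneousSubmodule (Fin n) K d ⊓ I.restrictScalars K) ∧
      ∀ e ∈ T d, ∀ v : Fin n, e + Finsupp.single v 1 ∈ T (d + 1)) ∧
    ∀ p j, betti I p j ≤
      betti (Ideal.span ((fun e => monomial e (1 : K)) '' {e | ∃ d, e ∈ T d})) p j := by
  have hreg' := Vale.Agent.P200.Quad.regList_ofFn hreg
  have ha' : (∃ q : ℕ, 2 ≤ q ∧ (ringChar K = 0 ∨ q < ringChar K) ∧ ∀ i, a i = q) ∨
      (ringChar K).Prime ∧ ∀ i, IsPrimePow (a i) ∧ ringChar K ∣ a i := by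
    rcases CharP.char_is_prime_or_zero K (ringChar K) with hp | h0
    · rcases isEmpty_or_nonempty (Fin c) with hc | ⟨⟨i⟩⟩
      · exact Or.inr ⟨hp, fun i => (hc.false i).elim⟩
      · exact ha.elim (fun ⟨q, hq, haq⟩ => Or.inl ⟨q, haq i ▸ ha2 i, hq, haq⟩)
          fun h => Or.inr ⟨hp, h⟩
    · rcases isEmpty_or_nonempty (Fin c) with hc | ⟨⟨i⟩⟩
      · exact Or.inl ⟨2, le_rfl, Or.inl h0, fun i => (hc.false i).elim⟩
      · exact ha.elim (fun ⟨q, hq, haq⟩ => Or.inl ⟨q, haq i ▸ ha2 i, hq, haq⟩)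
          fun h => absurd (zero_dvd_iff.1 (h0 ▸ (h i).2)) (h i).1.pos.ne'
  rcases ha' with ⟨q, hq, hchar, haq⟩ | ⟨hp, ha⟩
  · obtain rfl : a = fun _ => q := funext haq
    exact Vale.Agent.P200.Deg.lpp_equal
      (fun F _ _ q n hq hne => Vale.Agent.P200.Deg.factorises_of
        (Vale.Agent.P200.Deg.stepGoal Vale.Agent.P200.Deg.calcGoal) (fun K _ _ => Vale.Agent.P200.Deg.exists_base K) F hq hne)
      K hcn hq hchar hf hreg' hI hfI
  · have : Fact (ringChar K).Prime := ⟨hp⟩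
    have : CharP (AlgebraicClosure K) (ringChar K) :=
      charP_of_injective_algebraMap (algebraMap K (AlgebraicClosure K)).injective _
    refine Vale.Agent.P200.Betti.Tri.exists_lpp_powers_char hp.two_le hcn hmono (fun i => ?_)
      (fun b hb hb' => Vale.Agent.P200.Betti.Tri.triangular_of_hasRows
        (Vale.Agent.P200.PMix.hasRows (AlgebraicClosure K) (ringChar K) b hb fun i => ?_))
      hf hreg' hI hfI
    · obtain ⟨r, s, hr, hs, hrs⟩ := (isPrimePow_nat_iff _).1 (ha i).1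
      refine ⟨s, hs, ?_⟩
      rw [← hrs, (Nat.prime_dvd_prime_iff_eq hp hr).1 (hp.dvd_of_dvd_pow (hrs ▸ (ha i).2))]
    · obtain ⟨s, hs, hsb⟩ := hb' i
      exact ⟨s - 1, by rw [Nat.sub_add_cancel hs]; exact hsb⟩
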