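import Vale.Agent.P200.LPP3.Few

/-!
The lex-plus-powers bound on graded Betti numbers in three variables.
-/

open MvPolynomial Module
open Vale.Agent.P200.LPP3 (betti1 betti2 betti3)

theorem Vale.Agent.Results.P200.LPPThreeVariables.result (K : Type*) [Field K] (c : ℕ)
    (hc : c ≤ 3) (a : Fin c → ℕ) (ha : Monotone a) (ha2 : ∀ i, 2 ≤ a i)
    (f : Fin c → MvPolynomial (Fin 3) K) (hf : ∀ i, (f i).IsHomogeneous (a i))
    (hreg : ∀ i, ∀ u, f i * u ∈ Ideal.span (f '' Set.Iio i) → u ∈ Ideal.span (f '' Set.Iio i))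
    (I : Ideal (MvPolynomial (Fin 3) K)) (hI : ∀ u ∈ I, ∀ d, homogeneousComponent d u ∈ I)
    (hfI : ∀ i, f i ∈ I) :
    ∃ T : ℕ → Finset (Fin 3 →₀ ℕ),
      (∀ d, (∀ e ∈ T d, e.degree = d) ∧
        (∀ e : Fin 3 →₀ ℕ, e.degree = d → (∃ i, a i ≤ e (Fin.castLE hc i)) → e ∈ T d) ∧
        (∀ e ∈ T d, ∀ e' : Fin 3 →₀ ℕ, e'.degree = d →
          (∀ i, e (Fin.castLE hc i) < a i) → (∀ i, e' (Fin.castLE hc i) < a i) →
          toLex e < toLex e' → e' ∈ T d) ∧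
        (T d).card = finrank K ↥(homogeneousSubmodule (Fin 3) K d ⊓ I.restrictScalars K) ∧
        ∀ e ∈ T d, ∀ v, e + Finsupp.single v 1 ∈ T (d + 1)) ∧
      ∀ j, betti1 I j ≤
          betti1 (Ideal.span ((fun e => monomial e (1 : K)) '' {e | ∃ d, e ∈ T d})) j ∧
        betti2 I j ≤
          betti2 (Ideal.span ((fun e => monomial e (1 : K)) '' {e | ∃ d, e ∈ T d})) j ∧
        betti3 I j ≤
          betti3 (Ideal.span ((fun e => monomial e (1 : K)) '' {e | ∃ d, e ∈ T d})) j :=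
  Vale.Agent.P200.LPP3.exists_lpp_betti_few hc ha ha2 hf hreg hI hfI
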